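import Vale.Agent.N262.Part
import Vale.Agent.P262.Defs

/-!
From the constant `σ(d)` of the problem to sequences indexed by natural numbers.
-/

namespace Vale.Agent.N262

open Finset Vale.Agent.P262

theorem sgn_of_le {d : ℕ} {K : ℝ} (hK : 0 ≤ K) (h : signedConst d ≤ ENNReal.ofReal K) :
    Sgn (EuclideanSpace ℝ (Fin d)) K := by
  intro N v hv
  simp only [signedConst, iSup_le_iff] at h
  have h1 := h N (fun i => v i.val) fun i => hv i.val
  obtain ⟨ε, h2⟩ := exists_eq_ciInf_of_finite (f := fun ε : Fin N → ℤˣ => ⨆ k : Fin (N + 1),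
    ‖partialSum (fun i : Fin N => ((ε i : ℤ) : ℝ) • v i.val) k.val‖ₑ)
  rw [← h2, iSup_le_iff] at h1
  refine ⟨fun i => if hi : i < N then ((ε ⟨i, hi⟩ : ℤ) : ℝ) else 1, fun i => ?_, fun k hk => ?_⟩
  · beta_reduce
    split_ifs with hi
    · rcases Int.units_eq_one_or (ε ⟨i, hi⟩) with e | e <;> simp [e]
    · exact Or.inl rfl
  · have h3 := h1 ⟨k, Nat.lt_succ_of_le hk⟩
    rw [← ofReal_norm, ENNReal.ofReal_le_ofReal_iff hK] at h3
    refine le_of_eq_of_le (congrArg _ ?_) h3
    have e : (range N).filter (fun i => i < k) = range k := by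
      ext i
      simp only [mem_filter, mem_range]
      omega
    rw [partialSum, sum_filter, ← e, sum_filter, ← Fin.sum_univ_eq_sum_range
      (fun i => if i < k then (if hi : i < N then ((ε ⟨i, hi⟩ : ℤ) : ℝ) else 1) • v i else 0)]
    exact sum_congr rfl fun i _ => by simp

theorem Sel.mono {E : Type*} [NormedAddCommGroup E] [InnerProductSpace ℝ E] {K L : ℝ}
    (h : Sel E K) (hK : K ≤ L) : Sel E L := fun V a ha => by
  obtain ⟨v, h1, h2⟩ := h V a ha
  exact ⟨v, h1, fun k l R hR hv => (h2 k l R hR hv).trans (mul_le_mul_of_nonneg_right hK hR)⟩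

theorem sel_of_le {d : ℕ} (hd : 1 ≤ d) {C : ℝ} (hC : 0 ≤ C)
    (h : signedConst d ≤ ENNReal.ofReal (C * √d)) :
    Sel (EuclideanSpace ℝ (Fin d)) ((32 * C + 8) * √d) := by
  have h1 : 1 ≤ √(d : ℝ) := Real.one_le_sqrt.2 (by exact_mod_cast hd)
  exact (sgn_of_le (by positivity) h).sel.mono (by linarith)

end Vale.Agent.N262
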