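import Vale.Agent.N262.Select
import Mathlib.Analysis.InnerProductSpace.PiL2

/-!
Partitions of a sequence of vectors into parts with prescribed shares; the lower bound.
-/

namespace Vale.Agent.N262

open Finset

variable {E : Type*} [NormedAddCommGroup E] [InnerProductSpace ℝ E] {ι : Type*} [DecidableEq ι]
  {K : ℝ}

/-- Colourings with the colours in `S`, shares proportional to `p`, and errors `b`. -/
def Bal (E : Type*) [NormedAddCommGroup E] [InnerProductSpace ℝ E] (p : ι → ℝ) (S : Finset ι)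
    (b : ι → ℝ) : Prop :=
  ∀ v : ℕ → E, ∃ χ : ℕ → ι, (∀ i, χ i ∈ S) ∧ ∀ j ∈ S, ∀ (k l : ℕ) (R : ℝ), 0 ≤ R →
    (∀ i ∈ Ico k l, ‖v i‖ ≤ R) → ‖∑ i ∈ Ico k l, (if χ i = j then v i else 0) -
      (p j / ∑ x ∈ S, p x) • ∑ i ∈ Ico k l, v i‖ ≤ b j * R

variable {p : ι → ℝ}

theorem Bal.mono {S : Finset ι} {b b' : ι → ℝ} (h : Bal E p S b) (hb : ∀ j ∈ S, b j ≤ b' j) :
    Bal E p S b' := fun v => by
  obtain ⟨χ, h1, h2⟩ := h v
  exact ⟨χ, h1, fun j hj k l R hR hv =>
    (h2 j hj k l R hR hv).trans (mul_le_mul_of_nonneg_right (hb j hj) hR)⟩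

theorem bal_single {j : ι} (hj : 0 < p j) : Bal E p {j} fun _ => 0 := fun v =>
  ⟨fun _ => j, fun _ => mem_singleton_self j, fun x hx k l R _ _ => by
    rw [mem_singleton.1 hx]
    simp [div_self hj.ne']⟩

theorem step_est {x y z : E} {a P Q b R : ℝ} (ha : 0 ≤ a) (hP : 0 < P)
    (h1 : ‖x - (a / P) • y‖ ≤ b * R) (h2 : ‖y - (P / Q) • z‖ ≤ K * R) :
    ‖x - (a / Q) • z‖ ≤ (b + a / P * K) * R := by
  have e : x - (a / Q) • z = (x - (a / P) • y) + (a / P) • (y - (P / Q) • z) := by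
    rw [smul_sub, smul_smul, div_mul_div_cancel₀ hP.ne']
    abel
  rw [e]
  refine (norm_add_le _ _).trans ?_
  rw [norm_smul, Real.norm_of_nonneg (div_nonneg ha hP.le)]
  have := mul_le_mul_of_nonneg_left h2 (div_nonneg ha hP.le)
  linarith

theorem Bal.merge (h : Sel E K) {S T : Finset ι} (hd : Disjoint S T) (hp : ∀ j ∈ S ∪ T, 0 ≤ p j)
    (hS : 0 < ∑ x ∈ S, p x) (hT : 0 < ∑ x ∈ T, p x) {b c : ι → ℝ} (h1 : Bal E p S b)
    (h2 : Bal E p T c) : Bal E p (S ∪ T) fun j =>
      if j ∈ S then b j + p j / (∑ x ∈ S, p x) * K else c j + p j / (∑ x ∈ T, p x) * K := by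
  classical
  intro v
  set P := ∑ x ∈ S, p x
  set Q := ∑ x ∈ T, p x
  have hPQ : 0 < P + Q := add_pos hS hT
  have l0 : 0 ≤ P / (P + Q) := div_nonneg hS.le hPQ.le
  have l1 : 0 ≤ Q / (P + Q) := div_nonneg hT.le hPQ.le
  have l2 : Q / (P + Q) + P / (P + Q) = 1 := by
    field_simp
    ring
  obtain ⟨u, hu, hu'⟩ := h (fun i => {0, v i}) (fun i => (P / (P + Q)) • v i) fun i => by
    rw [convexHull_pair]
    exact ⟨Q / (P + Q), P / (P + Q), l1, l0, l2, by simp⟩
  obtain ⟨χ₁, a1, a2⟩ := h1 u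
  obtain ⟨χ₂, b1, b2⟩ := h2 fun i => v i - u i
  have hu0 : ∀ i, u i ≠ v i → u i = 0 := fun i hi => (hu i).resolve_right hi
  refine ⟨fun i => if u i = v i then χ₁ i else χ₂ i, fun i => ?_, fun j hj k l R hR hv => ?_⟩
  · beta_reduce
    split_ifs
    exacts [mem_union_left _ (a1 i), mem_union_right _ (b1 i)]
  have h3 : ‖∑ i ∈ Ico k l, u i - (P / (P + Q)) • ∑ i ∈ Ico k l, v i‖ ≤ K * R := by
    rw [smul_sum, ← sum_sub_distrib]
    refine hu' k l R hR fun i hi x hx => le_trans ?_ (hv i hi)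
    rcases hx with rfl | rfl
    · rw [zero_sub, norm_neg, norm_smul, Real.norm_of_nonneg l0]
      exact mul_le_of_le_one_left (norm_nonneg _) (by linarith)
    · rw [show v i - (P / (P + Q)) • v i = (Q / (P + Q)) • v i by
        rw [eq_sub_of_add_eq l2, sub_smul, one_smul], norm_smul, Real.norm_of_nonneg l1]
      exact mul_le_of_le_one_left (norm_nonneg _) (by linarith)
  rw [sum_union hd]
  beta_reduce
  by_cases hjS : j ∈ S
  · rw [if_pos hjS]
    have e : ∀ i, (if (if u i = v i then χ₁ i else χ₂ i) = j then v i else 0) =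
        if χ₁ i = j then u i else 0 := fun i => by
      by_cases h4 : u i = v i
      · rw [if_pos h4, h4]
      · rw [if_neg h4, if_neg fun e : χ₂ i = j => disjoint_left.1 hd hjS (e ▸ b1 i), hu0 i h4,
          ite_self]
    simp only [e]
    refine step_est (hp j hj) hS (a2 j hjS k l R hR fun i hi => ?_) h3
    by_cases h4 : u i = v i
    · rw [h4]
      exact hv i hi
    · rwa [hu0 i h4, norm_zero]
  · rw [if_neg hjS]
    have e : ∀ i, (if (if u i = v i then χ₁ i else χ₂ i) = j then v i else 0) =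
        if χ₂ i = j then v i - u i else 0 := fun i => by
      by_cases h4 : u i = v i
      · rw [if_pos h4, if_neg fun e : χ₁ i = j => hjS (e ▸ a1 i), h4, sub_self, ite_self]
      · rw [if_neg h4, hu0 i h4, sub_zero]
    simp only [e]
    refine step_est (hp j hj) hT (b2 j ((mem_union.1 hj).resolve_left hjS) k l R hR
      fun i hi => ?_) ?_
    · by_cases h4 : u i = v i
      · rwa [h4, sub_self, norm_zero]
      · rw [hu0 i h4, sub_zero]
        exact hv i hi
    · rw [sum_sub_distrib, eq_sub_of_add_eq l2, sub_smul, one_smul, ← norm_neg]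
      refine le_of_eq_of_le (congrArg _ ?_) h3
      abel

omit [DecidableEq ι] in
theorem exists_third (S : Finset ι) {P : ℝ} (hP : 0 < P) (h : ∀ j ∈ S, p j ≤ P)
    (hS : P ≤ ∑ x ∈ S, p x) : ∃ G ⊆ S, P ≤ ∑ x ∈ G, p x ∧ ∑ x ∈ G, p x ≤ 2 * P := by
  classical
  induction S using Finset.induction_on with
  | empty => simp at hS; linarith
  | insert j S hj ih =>
    by_cases h1 : P ≤ ∑ x ∈ S, p x
    · obtain ⟨G, h2, h3⟩ := ih (fun x hx => h x (mem_insert_of_mem hx)) h1
      exact ⟨G, h2.trans (subset_insert _ _), h3⟩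
    · refine ⟨_, subset_rfl, hS, ?_⟩
      rw [sum_insert hj]
      linarith [h j (mem_insert_self _ _)]

theorem est_small {a P Q : ℝ} (hK : 0 ≤ K) (ha : 0 ≤ a) (hP : 0 < P) (hQ : 3 * P ≤ 2 * Q) :
    (4 - 3 * (a / P)) * K + a / P * K ≤ (4 - 3 * (a / Q)) * K := by
  have hQ' : 0 < Q := by linarith
  have h1 : 3 * (a / Q) ≤ 2 * (a / P) := by
    rw [← mul_div_assoc, ← mul_div_assoc, div_le_div_iff₀ hQ' hP]
    nlinarith
  nlinarith

theorem Sel.bal (h : Sel E K) (hK : 0 ≤ K) (S : Finset ι) (hS : S.Nonempty)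
    (hp : ∀ j ∈ S, 0 < p j) : Bal E p S fun j => (4 - 3 * (p j / ∑ x ∈ S, p x)) * K := by
  induction S using Finset.strongInduction with
  | H S ih =>
    have pos : ∀ T ⊆ S, T.Nonempty → 0 < ∑ x ∈ T, p x := fun T hT hT' =>
      sum_pos (fun j hj => hp j (hT hj)) hT'
    have hP := pos S subset_rfl hS
    have le1 : ∀ j ∈ S, p j / ∑ x ∈ S, p x ≤ 1 := fun j hj =>
      (div_le_one hP).2 (single_le_sum (fun x hx => (hp x hx).le) hj)
    by_cases h1 : ∃ j ∈ S, (∑ x ∈ S, p x) / 3 ≤ p j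
    · obtain ⟨j, hj, h1⟩ := h1
      by_cases h2 : (S.erase j).Nonempty
      · have e : {j} ∪ S.erase j = S := by
          rw [← insert_eq, insert_erase hj]
        have h3 := Bal.merge h (S := {j}) (T := S.erase j) (by simp)
          (fun x hx => (hp x (e ▸ hx)).le) (by simpa using hp j hj) (pos _ (erase_subset _ _) h2)
          (bal_single (hp j hj))
          (ih _ (erase_ssubset hj) h2 fun x hx => hp x (mem_of_mem_erase hx))
        rw [e] at h3
        refine h3.mono fun x hx => ?_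
        split_ifs with h4
        · rw [mem_singleton.1 h4, sum_singleton, div_self (hp j hj).ne']
          nlinarith [le1 j hj]
        · refine est_small hK (hp x hx).le (pos _ (erase_subset _ _) h2) ?_
          have := add_sum_erase S p hj
          linarith
      · have e : S = {j} := by
          rw [not_nonempty_iff_eq_empty, erase_eq_empty_iff] at h2
          exact h2.resolve_left hS.ne_empty
        subst e
        exact (bal_single (hp j hj)).mono fun x hx => by nlinarith [le1 x hx]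
    · push Not at h1
      obtain ⟨G, h2, h3, h4⟩ := exists_third (p := p) S (P := (∑ x ∈ S, p x) / 3) (by linarith)
        (fun j hj => (h1 j hj).le) (by linarith)
      have h5 := sum_sdiff (f := p) h2
      have g1 : G.Nonempty := by
        rw [nonempty_iff_ne_empty]
        rintro rfl
        rw [sum_empty] at h3
        linarith
      have g2 : (S \ G).Nonempty := by
        rw [nonempty_iff_ne_empty]
        intro e
        rw [e, sum_empty] at h5
        linarith
      have e : G ∪ S \ G = S := union_sdiff_of_subset h2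
      have h6 := Bal.merge h (S := G) (T := S \ G) disjoint_sdiff (fun x hx => (hp x (e ▸ hx)).le)
        (pos _ h2 g1) (pos _ sdiff_subset g2)
        (ih _ ⟨h2, fun h7 => by
          obtain ⟨x, hx⟩ := g2
          exact (mem_sdiff.1 hx).2 (h7 (mem_sdiff.1 hx).1)⟩ g1 fun x hx => hp x (h2 hx))
        (ih _ (sdiff_ssubset h2 g1) g2 fun x hx => hp x (sdiff_subset hx))
      rw [e] at h6
      refine h6.mono fun x hx => ?_
      split_ifs
      · exact est_small hK (hp x hx).le (pos _ h2 g1) (by linarith)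
      · exact est_small hK (hp x hx).le (pos _ sdiff_subset g2) (by linarith)

/-- Partitions with prescribed shares. -/
theorem Sel.part [Fintype ι] (h : Sel E K) (hK : 0 ≤ K) (hp : ∀ j, 0 ≤ p j) (h1 : ∑ j, p j = 1)
    (v : ℕ → E) : ∃ χ : ℕ → ι, ∀ (j : ι) (k l : ℕ) (R : ℝ), 0 ≤ R → (∀ i ∈ Ico k l, ‖v i‖ ≤ R) →
      ‖∑ i ∈ Ico k l with χ i = j, v i - p j • ∑ i ∈ Ico k l, v i‖ ≤ 4 * K * R := by
  classical
  have e : ∑ x ∈ univ.filter (fun x => 0 < p x), p x = 1 := by
    rw [← h1]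
    exact sum_filter_of_ne fun x _ hx => lt_of_le_of_ne (hp x) hx.symm
  obtain ⟨χ, h2, h3⟩ := h.bal (p := p) hK (univ.filter fun x => 0 < p x) (by
    rw [nonempty_iff_ne_empty]
    intro h2
    rw [h2, sum_empty] at e
    exact zero_ne_one e) (fun j hj => (mem_filter.1 hj).2) v
  refine ⟨χ, fun j k l R hR hv => ?_⟩
  by_cases hj : 0 < p j
  · have h4 := h3 j (mem_filter.2 ⟨mem_univ _, hj⟩) k l R hR hv
    rw [e, div_one, ← sum_filter] at h4
    refine h4.trans (mul_le_mul_of_nonneg_right ?_ hR)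
    nlinarith
  · rw [le_antisymm (not_lt.1 hj) (hp j), zero_smul, sub_zero, sum_eq_zero, norm_zero]
    · positivity
    · intro i hi
      exact absurd ((mem_filter.1 hi).2 ▸ (mem_filter.1 (h2 i)).2) hj

/-! ### The lower bound -/

theorem exists_mul_far {t : ℝ} (h0 : 0 < t) (h1 : t < 1) :
    ∃ q : ℕ, ∀ n : ℤ, 1 / 3 ≤ |n - t * q| := by
  have key : ∀ s : ℝ, 0 < s → s ≤ 1 / 2 → ∃ q : ℕ, 1 / 3 ≤ s * q ∧ s * q ≤ 2 / 3 := by
    intro s a0 a1
    by_cases a2 : 1 / 3 ≤ s
    · exact ⟨1, by simpa using a2, by simp; linarith⟩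
    · refine ⟨⌈1 / 3 / s⌉₊, ?_, ?_⟩
      · have := Nat.le_ceil (1 / 3 / s)
        rw [div_le_iff₀ a0] at this
        linarith
      · have := (Nat.ceil_lt_add_one (a := 1 / 3 / s) (by positivity)).le
        have a3 := mul_le_mul_of_nonneg_left this a0.le
        rw [mul_add, mul_div_cancel₀ _ a0.ne'] at a3
        linarith
  have far : ∀ (x : ℝ) (n : ℤ), 1 / 3 ≤ x → x ≤ 2 / 3 → 1 / 3 ≤ |n - x| := fun x n a0 a1 => by
    rcases le_or_gt n 0 with h | h
    · have : (n : ℝ) ≤ 0 := by exact_mod_cast h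
      exact le_abs.2 (Or.inr (by linarith))
    · have : (1 : ℝ) ≤ n := by exact_mod_cast h
      exact le_abs.2 (Or.inl (by linarith))
  rcases le_total t (1 / 2) with h | h
  · obtain ⟨q, a0, a1⟩ := key t h0 h
    exact ⟨q, fun n => far _ n a0 a1⟩
  · obtain ⟨q, a0, a1⟩ := key (1 - t) (by linarith) (by linarith)
    refine ⟨q, fun n => ?_⟩
    have := far _ (q - n) a0 a1
    rw [← abs_neg]
    convert this using 2
    push_cast
    ring

theorem lower (d : ℕ) (hd : 1 ≤ d) {t : ℝ} (h0 : 0 < t) (h1 : t < 1) :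
    ∃ (N : ℕ) (v : ℕ → EuclideanSpace ℝ (Fin d)), (∀ i, ‖v i‖ = 1) ∧ ∀ A ⊆ range N,
      √d / 3 ≤ ‖∑ i ∈ A, v i - t • ∑ i ∈ range N, v i‖ := by
  obtain ⟨q, hq⟩ := exists_mul_far h0 h1
  refine ⟨d * q, fun i => EuclideanSpace.single ⟨i % d, Nat.mod_lt _ hd⟩ 1, fun i => by simp,
    fun A _ => ?_⟩
  have e1 : ∀ (c : Fin d) (m : ℕ), ∑ i ∈ range (d * m), (if c.val = i % d then (1 : ℝ) else 0) =
      m := fun c m => by
    induction m with
    | zero => simp
    | succ m ih =>
      rw [Nat.mul_succ, sum_range_add, ih, sum_eq_single_of_mem c.val (mem_range.2 c.2)]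
      · simp [Nat.mod_eq_of_lt c.2]
      · intro i hi hic
        rw [Nat.mul_add_mod, Nat.mod_eq_of_lt (mem_range.1 hi), if_neg hic.symm]
  rw [EuclideanSpace.norm_eq, div_le_iff₀ (by norm_num), show (3 : ℝ) = √9 by
    rw [show (9 : ℝ) = 3 ^ 2 by norm_num, Real.sqrt_sq (by norm_num)],
    ← Real.sqrt_mul' _ (by norm_num), sum_mul]
  refine Real.sqrt_le_sqrt ?_
  calc (d : ℝ) = ∑ _c : Fin d, (1 : ℝ) := by simp
    _ ≤ _ := sum_le_sum fun c _ => ?_
  have e2 : (∑ i ∈ A, EuclideanSpace.single (⟨i % d, Nat.mod_lt _ hd⟩ : Fin d) (1 : ℝ) -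
      t • ∑ i ∈ range (d * q), EuclideanSpace.single (⟨i % d, Nat.mod_lt _ hd⟩ : Fin d) (1 : ℝ)) c =
      (((A.filter fun i => c.val = i % d).card : ℤ) : ℝ) - t * q := by
    simp [Pi.single_apply, Fin.ext_iff, ← e1 c q]
  rw [e2, Real.norm_eq_abs]
  have := hq ((A.filter fun i => c.val = i % d).card : ℤ)
  nlinarith

end Vale.Agent.N262
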