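import Mathlib.Analysis.InnerProductSpace.Basic
import Mathlib.Analysis.Convex.Combination
import Mathlib.Analysis.Convex.Hull
import Mathlib.Order.Filter.Ultrafilter.Basic
import Mathlib.Order.Filter.Cofinite
import Mathlib.Algebra.Order.Archimedean.Basic
import Mathlib.Analysis.SpecificLimits.Basic

/-!
From signs to selections: a bound for signed partial sums in a Euclidean space gives the same
bound, up to an absolute factor, for selections from arbitrary sets, on all blocks at once, and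
for partitions into any number of parts.
-/

namespace Vale.Agent.N262

open Finset
open scoped RealInnerProductSpace

variable {E : Type*} [NormedAddCommGroup E] [InnerProductSpace ℝ E]

/-- Signed partial sums of vectors in the unit ball can be bounded by `K`. -/
def Sgn (E : Type*) [NormedAddCommGroup E] [InnerProductSpace ℝ E] (K : ℝ) : Prop :=
  ∀ (N : ℕ) (v : ℕ → E), (∀ i, ‖v i‖ ≤ 1) → ∃ ε : ℕ → ℝ, (∀ i, ε i = 1 ∨ ε i = -1) ∧
    ∀ k ≤ N, ‖∑ i ∈ range k, ε i • v i‖ ≤ K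

theorem Sgn.scale {K : ℝ} (h : Sgn E K) (N : ℕ) (v : ℕ → E) {R : ℝ} (hR : 0 < R)
    (hv : ∀ i, ‖v i‖ ≤ R) : ∃ ε : ℕ → ℝ, (∀ i, ε i = 1 ∨ ε i = -1) ∧
      ∀ k ≤ N, ‖∑ i ∈ range k, ε i • v i‖ ≤ K * R := by
  obtain ⟨ε, h1, h2⟩ := h N (fun i => R⁻¹ • v i) fun i => by
    rw [norm_smul, norm_inv, Real.norm_of_nonneg hR.le, inv_mul_le_iff₀ hR, mul_one]
    exact hv i
  refine ⟨ε, h1, fun k hk => ?_⟩
  have h3 := h2 k hk
  have e : ∑ i ∈ range k, ε i • R⁻¹ • v i = R⁻¹ • ∑ i ∈ range k, ε i • v i := by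
    rw [smul_sum]
    exact sum_congr rfl fun i _ => smul_comm _ _ _
  rw [e, norm_smul, norm_inv, Real.norm_of_nonneg hR.le, inv_mul_le_iff₀ hR] at h3
  linarith

theorem Sgn.nonneg {K : ℝ} (h : Sgn E K) : 0 ≤ K := by
  obtain ⟨ε, -, h2⟩ := h 0 (fun _ => 0) fun _ => by simp
  simpa using h2 0 le_rfl

/-- Greedy choice: from sets that meet every half space, with squared norm of the sum at most
`m R²`. -/
theorem greedy (S : ℕ → Set E) {R : ℝ} (hS : ∀ j s, ∃ x ∈ S j, ⟪s, x⟫ ≤ 0 ∧ ‖x‖ ≤ R) :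
    ∃ t : ℕ → E, (∀ j, t j ∈ S j ∧ ‖t j‖ ≤ R) ∧ ∀ m : ℕ, ‖∑ j ∈ range m, t j‖ ^ 2 ≤ m * R ^ 2 := by
  choose f hf using hS
  let s : ℕ → E := fun m => Nat.rec 0 (fun j x => x + f j x) m
  have e : ∀ m, ∑ j ∈ range m, f j (s j) = s m := fun m => by
    induction m with
    | zero => rfl
    | succ m ih => rw [sum_range_succ, ih]
  refine ⟨fun j => f j (s j), fun j => ⟨(hf j _).1, (hf j _).2.2⟩, fun m => ?_⟩
  rw [e]
  induction m with
  | zero => simp [s]
  | succ m ih =>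
    have h1 := (hf m (s m)).2
    have h2 : ‖f m (s m)‖ ^ 2 ≤ R ^ 2 := pow_le_pow_left₀ (norm_nonneg _) h1.2 2
    have h3 : s (m + 1) = s m + f m (s m) := rfl
    rw [h3, norm_add_sq_real]
    push_cast
    linarith [h1.1]

/-- Points that are obtained from `V` by `n` rounds of midpoints of close points. -/
def Good (V : Set E) (R : ℝ) : ℕ → E → Prop
  | 0, a => a ∈ V
  | n + 1, a => ∃ w, Good V R n (a + w) ∧ Good V R n (a - w) ∧ ‖w‖ ≤ (3 / 4) ^ n * R

theorem le_of_sq {x R : ℝ} (hR : 0 ≤ R) (n : ℕ) (h : x ^ 2 ≤ (2 : ℝ) ^ n * R ^ 2) :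
    ((2 : ℝ) ^ n)⁻¹ * x ≤ (3 / 4) ^ n * R := by
  have h2 : (0 : ℝ) < 2 ^ n := by positivity
  rw [inv_mul_le_iff₀ h2]
  refine le_of_sq_le_sq (h.trans ?_) (by positivity)
  have h3 : (2 : ℝ) ^ n ≤ ((2 * (3 / 4)) ^ 2) ^ n := pow_le_pow_left₀ (by norm_num) (by norm_num) n
  calc (2 : ℝ) ^ n * R ^ 2 ≤ ((2 * (3 / 4)) ^ 2) ^ n * R ^ 2 :=
        mul_le_mul_of_nonneg_right h3 (sq_nonneg R)
    _ = (2 ^ n * ((3 / 4) ^ n * R)) ^ 2 := by
        rw [← pow_mul, mul_comm 2 n, pow_mul, mul_pow]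
        ring

/-- The mean of `2 ^ n` points of `V` is good. -/
theorem good_mean {V : Set E} {c : E} {R : ℝ} (hR : 0 ≤ R) (n : ℕ) (t : ℕ → E)
    (ht : ∀ j, t j ∈ V ∧ ‖t j - c‖ ≤ R) :
    Good V R n (((2 : ℝ) ^ n)⁻¹ • ∑ j ∈ range (2 ^ n), t j) := by
  induction n generalizing t with
  | zero => simpa [Good] using (ht 0).1
  | succ n ih =>
    obtain ⟨u, hu, hu'⟩ := greedy (R := R)
      (fun j => {x | x = (1 / 2 : ℝ) • (t j - t (2 ^ n + j)) ∨
        x = -((1 / 2 : ℝ) • (t j - t (2 ^ n + j)))}) fun j s => by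
      have h1 : ‖(1 / 2 : ℝ) • (t j - t (2 ^ n + j))‖ ≤ R := by
        have h2 : ‖t j - t (2 ^ n + j)‖ ≤ ‖t j - c‖ + ‖t (2 ^ n + j) - c‖ := by
          rw [show t j - t (2 ^ n + j) = (t j - c) - (t (2 ^ n + j) - c) by abel]
          exact norm_sub_le _ _
        rw [norm_smul, Real.norm_of_nonneg (by norm_num)]
        linarith [(ht j).2, (ht (2 ^ n + j)).2]
      rcases le_total ⟪s, (1 / 2 : ℝ) • (t j - t (2 ^ n + j))⟫ 0 with h | h
      · exact ⟨_, Or.inl rfl, h, h1⟩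
      · exact ⟨_, Or.inr rfl, by rw [inner_neg_right]; linarith, by rwa [norm_neg]⟩
    have hm : ∀ j, ((1 / 2 : ℝ) • (t j + t (2 ^ n + j)) + u j = t j ∧
        (1 / 2 : ℝ) • (t j + t (2 ^ n + j)) - u j = t (2 ^ n + j)) ∨
        ((1 / 2 : ℝ) • (t j + t (2 ^ n + j)) + u j = t (2 ^ n + j) ∧
        (1 / 2 : ℝ) • (t j + t (2 ^ n + j)) - u j = t j) := fun j => by
      rcases (hu j).1 with h | h
      · exact Or.inl ⟨by rw [h]; module, by rw [h]; module⟩
      · exact Or.inr ⟨by rw [h]; module, by rw [h]; module⟩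
    have h1 := ih (fun j => (1 / 2 : ℝ) • (t j + t (2 ^ n + j)) + u j) fun j => by
      rcases hm j with h | h <;> rw [h.1] <;> exact ht _
    have h2 := ih (fun j => (1 / 2 : ℝ) • (t j + t (2 ^ n + j)) - u j) fun j => by
      rcases hm j with h | h <;> rw [h.2] <;> exact ht _
    have e : ((2 : ℝ) ^ (n + 1))⁻¹ • ∑ j ∈ range (2 ^ (n + 1)), t j =
        ((2 : ℝ) ^ n)⁻¹ • ∑ j ∈ range (2 ^ n), (1 / 2 : ℝ) • (t j + t (2 ^ n + j)) := by
      rw [pow_succ (2 : ℕ) n, mul_two (2 ^ n : ℕ), sum_range_add, ← sum_add_distrib, ← smul_sum, smul_smul,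
        pow_succ, mul_inv, one_div]
    refine ⟨((2 : ℝ) ^ n)⁻¹ • ∑ j ∈ range (2 ^ n), u j, ?_, ?_, ?_⟩
    · rwa [e, ← smul_add, ← sum_add_distrib]
    · rwa [e, ← smul_sub, ← sum_sub_distrib]
    · rw [norm_smul, Real.norm_of_nonneg (by positivity)]
      refine le_of_sq hR n ?_
      have := hu' (2 ^ n)
      rwa [Nat.cast_pow, Nat.cast_ofNat] at this

/-- Every point of the convex hull is close to a good point. -/
theorem exists_good {V : Set E} {a : E} {R : ℝ} (hR : 0 ≤ R) (ha : a ∈ convexHull ℝ V)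
    (hV : ∀ x ∈ V, ‖x - a‖ ≤ R) (n : ℕ) : ∃ b, Good V R n b ∧ ‖b - a‖ ≤ (3 / 4) ^ n * R := by
  obtain ⟨u, hu, hu'⟩ := greedy (R := R) (fun _ => {x | x + a ∈ V}) fun _ s => by
    by_contra h
    have h1 : V ⊆ {x | ⟪s, a⟫ < ⟪s, x⟫} := fun x hx => by
      by_contra h2
      refine h ⟨x - a, by simpa using hx, ?_, hV x hx⟩
      rw [inner_sub_right]
      simp only [Set.mem_ofPred_eq, not_lt] at h2
      linarith
    have h2 := convexHull_min h1 (convex_halfSpace_gt (innerₛₗ ℝ s).isLinear _) ha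
    exact lt_irrefl ⟪s, a⟫ h2
  refine ⟨_, good_mean (c := a) hR n (fun j => u j + a) fun j => ⟨(hu j).1, by
    simpa using (hu j).2⟩, ?_⟩
  have h2 : (2 : ℝ) ^ n ≠ 0 := by positivity
  have e : ((2 : ℝ) ^ n)⁻¹ • ∑ j ∈ range (2 ^ n), (u j + a) - a =
      ((2 : ℝ) ^ n)⁻¹ • ∑ j ∈ range (2 ^ n), u j := by
    rw [sum_add_distrib, sum_const, card_range, smul_add, ← Nat.cast_smul_eq_nsmul ℝ, smul_smul,
      Nat.cast_pow, Nat.cast_ofNat, inv_mul_cancel₀ h2, one_smul, add_sub_cancel_right]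
  rw [e, norm_smul, Real.norm_of_nonneg (by positivity)]
  refine le_of_sq hR n ?_
  have := hu' (2 ^ n)
  rwa [Nat.cast_pow, Nat.cast_ofNat] at this

variable {K : ℝ}

theorem Sgn.good (h : Sgn E K) (N : ℕ) (V : ℕ → Set E) {R : ℝ} (hR : 0 < R) (n : ℕ) (a : ℕ → E)
    (ha : ∀ i, Good (V i) R n (a i)) : ∃ v : ℕ → E, (∀ i, v i ∈ V i) ∧
      ∀ k ≤ N, ‖∑ i ∈ range k, (v i - a i)‖ ≤ 4 * (1 - (3 / 4) ^ n) * K * R := by
  induction n generalizing a with
  | zero => exact ⟨a, ha, fun k _ => by simp⟩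
  | succ n ih =>
    choose w h1 h2 h3 using ha
    obtain ⟨ε, h4, h5⟩ := h.scale N w (by positivity) h3
    obtain ⟨v, h6, h7⟩ := ih (fun i => a i + ε i • w i) fun i => by
      rcases h4 i with e | e
      · rw [e, one_smul]
        exact h1 i
      · rw [e, neg_one_smul, ← sub_eq_add_neg]
        exact h2 i
    refine ⟨v, h6, fun k hk => ?_⟩
    have e : ∑ i ∈ range k, (v i - a i) =
        ∑ i ∈ range k, (v i - (a i + ε i • w i)) + ∑ i ∈ range k, ε i • w i := by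
      rw [← sum_add_distrib]
      exact sum_congr rfl fun i _ => by abel
    rw [e]
    refine (norm_add_le _ _).trans ((add_le_add (h7 k hk) (h5 k hk)).trans (le_of_eq ?_))
    ring

/-- Selection for finitely many indices. -/
theorem Sgn.fin (h : Sgn E K) (N : ℕ) (V : ℕ → Set E) (a : ℕ → E) {R : ℝ} (hR : 0 < R)
    (ha : ∀ i, a i ∈ convexHull ℝ (V i)) (hV : ∀ i, ∀ x ∈ V i, ‖x - a i‖ ≤ R) :
    ∃ v : ℕ → E, (∀ i, v i ∈ V i) ∧ ∀ k ≤ N, ‖∑ i ∈ range k, (v i - a i)‖ ≤ (4 * K + 1) * R := by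
  obtain ⟨n, hn⟩ := exists_pow_lt_of_lt_one (x := ((N : ℝ) + 1)⁻¹) (y := 3 / 4) (by positivity)
    (by norm_num)
  choose b h1 h2 using fun i => exists_good hR.le (ha i) (hV i) n
  obtain ⟨v, h3, h4⟩ := h.good N V hR n b h1
  refine ⟨v, h3, fun k hk => ?_⟩
  have e : ∑ i ∈ range k, (v i - a i) =
      ∑ i ∈ range k, (v i - b i) + ∑ i ∈ range k, (b i - a i) := by
    rw [← sum_add_distrib]
    exact sum_congr rfl fun i _ => by abel
  have h5 : ‖∑ i ∈ range k, (b i - a i)‖ ≤ R := by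
    refine (norm_sum_le_of_le _ fun i _ => h2 i).trans ?_
    rw [sum_const, card_range, nsmul_eq_mul, ← mul_assoc]
    refine mul_le_of_le_one_left hR.le ?_
    have h6 : (k : ℝ) ≤ N + 1 := by exact_mod_cast hk.trans (Nat.le_succ N)
    calc (k : ℝ) * (3 / 4) ^ n ≤ (N + 1) * ((N : ℝ) + 1)⁻¹ :=
          mul_le_mul h6 hn.le (by positivity) (by positivity)
      _ = 1 := mul_inv_cancel₀ (by positivity)
  have h6 : 0 ≤ (3 / 4 : ℝ) ^ n * K * R := by
    have := h.nonneg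
    positivity
  rw [e]
  refine (norm_add_le _ _).trans ((add_le_add (h4 k hk) h5).trans ?_)
  linarith

/-- Selection for infinite sequences of finite sets. -/
theorem Sgn.inf (h : Sgn E K) (V : ℕ → Set E) (hf : ∀ i, (V i).Finite) (a : ℕ → E) {R : ℝ}
    (hR : 0 < R) (ha : ∀ i, a i ∈ convexHull ℝ (V i)) (hV : ∀ i, ∀ x ∈ V i, ‖x - a i‖ ≤ R) :
    ∃ v : ℕ → E, (∀ i, v i ∈ V i) ∧ ∀ k, ‖∑ i ∈ range k, (v i - a i)‖ ≤ (4 * K + 1) * R := by
  choose u h1 h2 using fun N => h.fin N V a hR ha hV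
  have h3 : ∀ i, ∃ x ∈ V i, ∀ᶠ N in Filter.hyperfilter ℕ, u N i = x := fun i => by
    obtain ⟨x, hx, e⟩ := Ultrafilter.eq_pure_of_finite_mem
      (f := (Filter.hyperfilter ℕ).map fun N => u N i) (hf i)
      (Ultrafilter.mem_map.2 (Filter.univ_mem' fun N => h1 N i))
    refine ⟨x, hx, ?_⟩
    have h4 : {x} ∈ (Filter.hyperfilter ℕ).map fun N => u N i := by
      rw [e]
      exact Ultrafilter.mem_pure.2 rfl
    exact Ultrafilter.mem_map.1 h4
  choose v h4 h5 using h3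
  refine ⟨v, h4, fun k => ?_⟩
  have h6 : ∀ᶠ N in Filter.hyperfilter ℕ, k ≤ N :=
    Filter.hyperfilter_le_cofinite (Nat.cofinite_eq_atTop ▸ Filter.eventually_ge_atTop k)
  obtain ⟨N, h7, h8⟩ := (((Filter.eventually_all_finset (range k)).2 fun i _ => h5 i).and h6).exists
  rw [← sum_congr rfl fun i hi => congrArg (· - a i) (h7 i hi)]
  exact h2 N k h8

theorem sum_zpow_le (T : Finset ℤ) : ∀ R : ℝ, 0 ≤ R → (∀ j ∈ T, (2 : ℝ) ^ j ≤ R) →
    ∑ j ∈ T, (2 : ℝ) ^ j ≤ 2 * R := by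
  induction T using Finset.induction_on_max with
  | empty => exact fun R hR _ => by simpa using hR
  | insert j T hj ih =>
    intro R _ h
    rw [sum_insert fun h1 => lt_irrefl _ (hj j h1)]
    have h1 := ih (2 ^ (j - 1)) (zpow_pos two_pos _).le fun i hi =>
      zpow_le_zpow_right₀ (by norm_num) (by have := hj i hi; omega)
    have h2 := h j (mem_insert_self _ _)
    rw [zpow_sub₀ (by norm_num), zpow_one] at h1
    linarith

/-- The bound `K` holds for selections, on all blocks at once. -/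
def Sel (E : Type*) [NormedAddCommGroup E] [InnerProductSpace ℝ E] (K : ℝ) : Prop :=
  ∀ (V : ℕ → Set E) (a : ℕ → E), (∀ i, a i ∈ convexHull ℝ (V i)) →
    ∃ v : ℕ → E, (∀ i, v i ∈ V i) ∧ ∀ (k l : ℕ) (R : ℝ), 0 ≤ R →
      (∀ i ∈ Ico k l, ∀ x ∈ V i, ‖x - a i‖ ≤ R) → ‖∑ i ∈ Ico k l, (v i - a i)‖ ≤ K * R

theorem Sgn.sel (h : Sgn E K) : Sel E (8 * (4 * K + 1)) := by
  classical
  intro V a ha
  have hK := h.nonneg
  have h0 : ∀ i, ∃ (W : Finset E) (r : ℝ), (W : Set E) ⊆ V i ∧ a i ∈ convexHull ℝ (W : Set E) ∧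
      (∀ x ∈ W, ‖x - a i‖ ≤ r) ∧ ∃ x ∈ W, ‖x - a i‖ = r := fun i => by
    have h1 := ha i
    rw [convexHull_eq_union_convexHull_finite_subsets] at h1
    simp only [Set.mem_iUnion] at h1
    obtain ⟨W, h2, h3⟩ := h1
    obtain ⟨x, hx, h4⟩ := W.exists_max_image (fun x => ‖x - a i‖)
      (coe_nonempty.1 (convexHull_nonempty_iff.1 ⟨_, h3⟩))
    exact ⟨W, _, h2, h3, h4, x, hx, rfl⟩
  choose W r h1 h2 h3 h4 using h0
  have h5 : ∀ i, ∃ j : ℤ, r i ≤ 2 ^ (j + 1) ∧ (0 < r i → 2 ^ j < r i) := fun i => by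
    by_cases h6 : 0 < r i
    · obtain ⟨j, hj⟩ := exists_mem_Ioc_zpow h6 (y := 2) (by norm_num)
      exact ⟨j, hj.2, fun _ => hj.1⟩
    · exact ⟨0, by linarith [not_lt.1 h6, zpow_pos (two_pos : (0 : ℝ) < 2) ((0 : ℤ) + 1)],
        fun h7 => absurd h7 h6⟩
  choose lev h6 h7 using h5
  choose u h8 h9 using fun j : ℤ => h.inf (fun i => if lev i = j then (W i : Set E) else {a i})
    (fun i => by split_ifs; exacts [(W i).finite_toSet, Set.finite_singleton _]) a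
    (R := 2 ^ (j + 1)) (zpow_pos two_pos _)
    (fun i => by split_ifs; exacts [h2 i, subset_convexHull ℝ _ rfl])
    fun i x hx => by
      split_ifs at hx with e
      · exact (h3 i x hx).trans (e ▸ h6 i)
      · rw [hx, sub_self, norm_zero]
        exact (zpow_pos two_pos _).le
  have h10 : ∀ i, u (lev i) i ∈ W i := fun i => by simpa using h8 (lev i) i
  refine ⟨fun i => u (lev i) i, fun i => h1 i (h10 i), fun k l R hR hV => ?_⟩
  rcases le_total l k with hkl | hkl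
  · rw [Ico_eq_empty_of_le hkl, sum_empty, norm_zero]
    positivity
  set T := ((Ico k l).filter fun i => 0 < r i).image lev with hT
  have e : ∑ i ∈ Ico k l, (u (lev i) i - a i) = ∑ j ∈ T, ∑ i ∈ Ico k l, (u j i - a i) := by
    rw [sum_comm]
    refine sum_congr rfl fun i hi => ?_
    have h11 : ∀ j, j ≠ lev i → u j i - a i = 0 := fun j hj => by
      have := h8 j i
      rw [if_neg hj.symm] at this
      rw [this, sub_self]
    by_cases h12 : lev i ∈ T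
    · exact (sum_eq_single_of_mem _ h12 fun j _ hj => h11 j hj).symm
    · have h13 : ¬ 0 < r i := fun h13 => h12 (mem_image_of_mem _ (mem_filter.2 ⟨hi, h13⟩))
      rw [sum_eq_zero fun j hj => h11 j fun e => h12 (e ▸ hj)]
      exact norm_le_zero_iff.1 ((h3 i _ (h10 i)).trans (not_lt.1 h13))
  have h11 : ∀ j ∈ T, ‖∑ i ∈ Ico k l, (u j i - a i)‖ ≤ 4 * (4 * K + 1) * 2 ^ j := fun j _ => by
    rw [sum_Ico_eq_sub _ hkl]
    refine (norm_sub_le _ _).trans ((add_le_add (h9 j l) (h9 j k)).trans (le_of_eq ?_))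
    rw [zpow_add₀ (by norm_num), zpow_one]
    ring
  have h12 := sum_zpow_le T R hR fun j hj => by
    obtain ⟨i, hi, rfl⟩ := mem_image.1 hj
    obtain ⟨x, hx, e⟩ := h4 i
    exact (h7 i (mem_filter.1 hi).2).le.trans (e ▸ hV i (mem_filter.1 hi).1 x (h1 i hx))
  rw [e]
  refine (norm_sum_le_of_le _ h11).trans ?_
  rw [← mul_sum]
  nlinarith

end Vale.Agent.N262
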